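import Mathlib.Analysis.InnerProductSpace.Basic

/-!
P052, five points in dimension five: the cap `z ≥ 3 / 16`.
-/

namespace Vale.Agent.P052.R3.H86

theorem real_cap5 {κ ω z z' E : ℝ} (hz : 3/16 ≤ z) (hz1 : z ≤ 1) (hz' : 3/16 ≤ z') (hz'1 : z' ≤ 1)
    (a : 5 * κ ^ 2 ≤ 5 * κ + 2 * z ^ 2) (b : 5 * ω ^ 2 ≤ 5 * ω + 2 * z' ^ 2) (h0 : 0 ≤ E)
    (hc : (2 + 5 * κ + 5 * ω) ^ 2 ≤
      5 * ((1 - 2 * z ^ 2 + 5 * κ ^ 2) + (1 - 2 * z' ^ 2 + 5 * ω ^ 2) + 2 * E)) :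
    5 * (κ * ω) < E + 2 * (z * z') := by
  by_contra h
  push Not at h
  have h1 : 2 * (κ + ω) + (z + z') ^ 2 ≤ 3 / 5 := by nlinarith
  have h2 : 9 / 256 ≤ z * z' := by nlinarith
  have h3 : 0 < κ * ω := by nlinarith
  have h4 : (3 / 8) ^ 2 ≤ (z + z') ^ 2 := pow_le_pow_left₀ (by norm_num) (by linarith) 2
  rcases pos_and_pos_or_neg_and_neg_of_mul_pos h3 with ⟨h5, h6⟩ | ⟨h5, h6⟩
  · have h7 : κ + ω ≤ 59 / 256 := by nlinarith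
    have h8 : (κ + ω) ^ 2 ≤ (59 / 256) ^ 2 := pow_le_pow_left₀ (by linarith) h7 2
    nlinarith [sq_nonneg (κ - ω)]
  · have h7 : -(5 * κ) ≤ 2 * z ^ 2 := by nlinarith [sq_nonneg κ]
    have h8 : -(5 * ω) ≤ 2 * z' ^ 2 := by nlinarith [sq_nonneg ω]
    have h9 : -(5 * κ) * -(5 * ω) ≤ 2 * z ^ 2 * (2 * z' ^ 2) :=
      mul_le_mul h7 h8 (by linarith) (by positivity)
    have h10 : z * z' ≤ 1 := by nlinarith
    nlinarith [mul_nonneg (by linarith : (0:ℝ) ≤ z * z') (by linarith : 0 ≤ 1 - z * z')]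

end Vale.Agent.P052.R3.H86
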