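import Mathlib.Analysis.InnerProductSpace.Basic

/-!
P052, five points in dimension five: the cells `z ≤ 3 / 16`.
-/

namespace Vale.Agent.P052.R3.H86

/-- The polynomial contradiction for `P = √(A B)`. -/
theorem hi5 {A B κ ω c P : ℝ} (hP0 : 0 < P) (hP : P ^ 2 = A * B)
    (hκ : 0 ≤ κ) (hω : 0 ≤ ω) (hκA : κ ≤ A) (hωB : ω ≤ B)
    (hx : P ^ 2 - c ≤ 5 * (κ * ω)) (hy : 2 * P - c ≤ 5 * ((A - κ) * (B - ω)))
    (hc1 : c ≤ P ^ 2) (hy0 : 0 ≤ 2 * P - c) (hq : 0 < -4 * P ^ 2 + 6 * P - 1 - 5 * c) : False := by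
  have hA : 0 ≤ A - κ := by linarith
  have hB : 0 ≤ B - ω := by linarith
  have hR0 : 0 ≤ κ * (B - ω) + ω * (A - κ) := by positivity
  have hR : 5 * (κ * (B - ω) + ω * (A - κ)) ≤ 4 * P ^ 2 - 2 * P + 2 * c := by nlinarith
  have h1 : 4 * ((5 * (κ * ω)) * (5 * ((A - κ) * (B - ω)))) ≤
      (5 * (κ * (B - ω) + ω * (A - κ))) ^ 2 := by
    have := sq_nonneg (κ * (B - ω) - ω * (A - κ))
    nlinarith
  have h2 : (5 * (κ * (B - ω) + ω * (A - κ))) ^ 2 ≤ (4 * P ^ 2 - 2 * P + 2 * c) ^ 2 :=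
    pow_le_pow_left₀ (by linarith) hR 2
  have h3 : (P ^ 2 - c) * (2 * P - c) ≤ (5 * (κ * ω)) * (5 * ((A - κ) * (B - ω))) :=
    mul_le_mul hx hy hy0 (by linarith)
  have h4 : 0 < P ^ 2 * (-4 * P ^ 2 + 6 * P - 1 - 5 * c) := mul_pos (by positivity) hq
  nlinarith

theorem quad1 {P : ℝ} (h0 : 4705/10000 < P) (h1 : P ≤ 1) :
    0 < -4 * P ^ 2 + 6 * P - 1 - 5 * (3/16) := by
  nlinarith [mul_nonneg (sub_nonneg.2 h0.le) (sub_nonneg.2 h1)]

theorem quad0 {P : ℝ} (h0 : 34/100 < P) (h1 : P ≤ 1) :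
    0 < -4 * P ^ 2 + 6 * P - 1 - 5 * 0 := by
  nlinarith [mul_nonneg (sub_nonneg.2 h0.le) (sub_nonneg.2 h1)]

/-- A lower bound for `A`. -/
theorem lowA {A κ α : ℝ} (hκ : -(1/5) < κ) (hα : 1/2 ≤ α)
    (h : α + 5 * κ ^ 2 ≤ A * (1 + 5 * κ)) : 87/250 < A := by
  by_contra hcon
  push Not at hcon
  have h1 : A * (1 + 5 * κ) ≤ 87/250 * (1 + 5 * κ) :=
    mul_le_mul_of_nonneg_right hcon (by linarith)
  nlinarith [sq_nonneg (κ - 174/1000)]

/-- A lower bound for `B`. -/
theorem lowB {A κ α : ℝ} (hκ : -(1/5) < κ) (hα : 119/128 ≤ α)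
    (h : α + 5 * κ ^ 2 ≤ A * (1 + 5 * κ)) : 11/20 < A := by
  by_contra hcon
  push Not at hcon
  have h1 : A * (1 + 5 * κ) ≤ 11/20 * (1 + 5 * κ) :=
    mul_le_mul_of_nonneg_right hcon (by linarith)
  nlinarith [sq_nonneg (κ - 275/1000)]

/-- A lower bound for negative `κ`. -/
theorem lowN {A κ α : ℝ} (hκ : -(1/5) < κ) (hκ0 : κ < 0) (hα : 0 ≤ α)
    (h : α + 5 * κ ^ 2 ≤ A * (1 + 5 * κ)) : α ≤ A := by
  by_contra hcon
  push Not at hcon
  have h1 : A * (1 + 5 * κ) < α * (1 + 5 * κ) := mul_lt_mul_of_pos_right hcon (by linarith)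
  nlinarith [mul_nonneg hα (by linarith : 0 ≤ -κ), sq_nonneg κ]

/-- `A B ≤ 0.2214` is impossible, in the variables `t`, `s`. -/
theorem low_ts {A B t s : ℝ} (hA0 : 87/250 < A) (hB0 : 11/20 < B) (ht : 0 < t) (ht1 : t < 1)
    (hs : 0 < s) (hs1 : s < 1) (hA : 1/2 ≤ A + 5 * A ^ 2 * (t * (1 - t)))
    (hB : 119/128 ≤ B + 5 * B ^ 2 * (s * (1 - s)))
    (h : A + B - 3/16 ≤ 5 * (A * B) * (t * s)) (hAB : A * B ≤ 2214/10000) : False := by
  have hAB0 : 0 < A * B := by positivity
  have h1 : 3425/1000 * (A * B) ≤ A + B - 3/16 := by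
    have h2 : 0 ≤ B * (A + B - 3/16 - 3425/1000 * (A * B)) := by
      have h3 : 0 ≤ (2214/10000 - A * B) * (3425/1000 * B - 1) :=
        mul_nonneg (by linarith) (by linarith)
      nlinarith [mul_nonneg (by linarith : 0 ≤ B - 11/20) (by linarith : 0 ≤ B - 11/20)]
    have h3 : 0 ≤ A + B - 3/16 - 3425/1000 * (A * B) := by
      by_contra hcon
      push Not at hcon
      have := mul_neg_of_pos_of_neg (by linarith : 0 < B) hcon
      linarith
    linarith
  have hts : 685/1000 ≤ t * s := by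
    by_contra hcon
    push Not at hcon
    have h2 : 5 * (A * B) * (t * s) < 5 * (A * B) * (685/1000) :=
      mul_lt_mul_of_pos_left hcon (by positivity)
    linarith
  have ht2 : 685/1000 ≤ t := by nlinarith
  have hs2 : 685/1000 ≤ s := by nlinarith
  have ht3 : t * (1 - t) ≤ 215775/1000000 := by nlinarith
  have hs3 : s * (1 - s) ≤ 215775/1000000 := by nlinarith
  rcases le_or_gt (827/1000) t with h3 | h3
  · have ht4 : t * (1 - t) ≤ 143071/1000000 := by nlinarith
    have hA2 : 1/2 ≤ A + 5 * A ^ 2 * (143071/1000000) :=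
      hA.trans (by gcongr)
    have hB2 : 119/128 ≤ B + 5 * B ^ 2 * (215775/1000000) :=
      hB.trans (by gcongr)
    have hA3 : 39/100 < A := by
      by_contra hcon
      push Not at hcon
      have := pow_le_pow_left₀ (by linarith : 0 ≤ A) hcon 2
      norm_num at this
      linarith
    have hB3 : 574/1000 < B := by
      by_contra hcon
      push Not at hcon
      have := pow_le_pow_left₀ (by linarith : 0 ≤ B) hcon 2
      norm_num at this
      linarith
    have h9 : 39/100 * (574/1000) < A * B := mul_lt_mul'' hA3 hB3 (by norm_num) (by norm_num)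
    norm_num at h9
    linarith
  · have hs4 : 827/1000 ≤ s := by
      by_contra hcon
      push Not at hcon
      have : t * s < 827/1000 * (827/1000) := mul_lt_mul'' h3 hcon ht.le hs.le
      norm_num at this
      linarith
    have hs5 : s * (1 - s) ≤ 143071/1000000 := by nlinarith
    have hA2 : 1/2 ≤ A + 5 * A ^ 2 * (215775/1000000) :=
      hA.trans (by gcongr)
    have hB2 : 119/128 ≤ B + 5 * B ^ 2 * (143071/1000000) :=
      hB.trans (by gcongr)
    have hA3 : 36/100 < A := by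
      by_contra hcon
      push Not at hcon
      have := pow_le_pow_left₀ (by linarith : 0 ≤ A) hcon 2
      norm_num at this
      linarith
    have hB3 : 637/1000 < B := by
      by_contra hcon
      push Not at hcon
      have := pow_le_pow_left₀ (by linarith : 0 ≤ B) hcon 2
      norm_num at this
      linarith
    have h9 : 36/100 * (637/1000) < A * B := mul_lt_mul'' hA3 hB3 (by norm_num) (by norm_num)
    norm_num at h9
    linarith

/-- The case of opposite signs. -/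
theorem neg5 {A B κ ω z z' : ℝ} (hA1 : A ≤ 1) (hB1 : B ≤ 1)
    (hκA : κ < A) (hωB : ω < B) (hκ : -(1/5) < κ) (hω : -(1/5) < ω) (hz1 : -(1/2) ≤ z)
    (hz2 : z ≤ 0) (hz'1 : 0 ≤ z') (hz'2 : z' ≤ 3/16)
    (hCA : 1 - 2 * z ^ 2 + 5 * κ ^ 2 ≤ A * (1 + 5 * κ))
    (hCB : 1 - 2 * z' ^ 2 + 5 * ω ^ 2 ≤ B * (1 + 5 * ω))
    (hu : A * B + 2 * (z * z') ≤ 5 * (κ * ω))
    (hv : A + B + 2 * (z * z') ≤ 5 * ((A - κ) * (B - ω))) : False := by
  have ha : 1/2 ≤ 1 - 2 * z ^ 2 := by nlinarith
  have hb : 119/128 ≤ 1 - 2 * z' ^ 2 := by nlinarith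
  have hc : -(3/16) ≤ 2 * (z * z') := by nlinarith
  have hA0 := lowA hκ ha hCA
  have hB0 := lowB hω hb hCB
  have hAB0 : 87/250 * (11/20) < A * B := mul_lt_mul'' hA0 hB0 (by norm_num) (by norm_num)
  norm_num at hAB0
  have hκω : 0 < κ * ω := by linarith
  rcases pos_and_pos_or_neg_and_neg_of_mul_pos hκω with ⟨h5, h6⟩ | ⟨h5, h6⟩
  · rcases le_or_gt (A * B) (2214/10000) with h7 | h7
    · have hAp : 0 < A := by linarith
      have hBp : 0 < B := by linarith
      refine low_ts (t := (A - κ) / A) (s := (B - ω) / B) hA0 hB0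
        (div_pos (by linarith) hAp) ((div_lt_one hAp).2 (by linarith))
        (div_pos (by linarith) hBp) ((div_lt_one hBp).2 (by linarith)) ?_ ?_ ?_ h7
      · have e : A + 5 * A ^ 2 * ((A - κ) / A * (1 - (A - κ) / A)) = A + 5 * ((A - κ) * κ) := by
          field_simp
          ring
        rw [e]
        nlinarith
      · have e : B + 5 * B ^ 2 * ((B - ω) / B * (1 - (B - ω) / B)) = B + 5 * ((B - ω) * ω) := by
          field_simp
          ring
        rw [e]
        nlinarith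
      · have e : 5 * (A * B) * ((A - κ) / A * ((B - ω) / B)) = 5 * ((A - κ) * (B - ω)) := by
          field_simp
        rw [e]
        linarith
    · have hABp : 0 < A * B := by linarith
      have hP := Real.sq_sqrt hABp.le
      have hP0 := Real.sqrt_pos.2 hABp
      have hP1 : Real.sqrt (A * B) ≤ 1 := by
        rw [Real.sqrt_le_one]
        exact mul_le_one₀ hA1 (by linarith) hB1
      have hP2 : 2 * Real.sqrt (A * B) ≤ A + B := by
        have h8 : Real.sqrt (A * B) ≤ (A + B) / 2 := by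
          apply Real.sqrt_le_iff.2
          constructor
          · linarith
          · nlinarith [sq_nonneg (A - B)]
        linarith
      have hP3 : 4705/10000 < Real.sqrt (A * B) := by
        apply Real.lt_sqrt_of_sq_lt
        norm_num
        linarith
      refine hi5 (c := 3/16) hP0 hP h5.le h6.le hκA.le hωB.le (by linarith) (by linarith)
        (by linarith) (by linarith) (quad1 hP3 hP1)
  · have h7 := lowN hκ h5 (by linarith) hCA
    have h8 := lowN hω h6 (by linarith) hCB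
    have h9 : 1/2 * (119/128) ≤ A * B := mul_le_mul (by linarith) (by linarith) (by norm_num)
      (by linarith)
    nlinarith

theorem real_cell5 {A B κ ω z z' E : ℝ} (hA1 : A ≤ 1) (hB1 : B ≤ 1) (hκA : κ < A) (hωB : ω < B)
    (hκ : -(1/5) < κ) (hω : -(1/5) < ω) (hz1 : -(1/2) ≤ z) (hz2 : z ≤ 3/16)
    (hz'1 : -(1/2) ≤ z') (hz'2 : z' ≤ 3/16)
    (hCA : 1 - 2 * z ^ 2 + 5 * κ ^ 2 ≤ A * (1 + 5 * κ))
    (hCB : 1 - 2 * z' ^ 2 + 5 * ω ^ 2 ≤ B * (1 + 5 * ω)) (h1 : A * B ≤ E)
    (h2 : A * (1 + 5 * ω) + B * (1 + 5 * κ) - 5 * (A * B) ≤ E) :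
    5 * (κ * ω) < E + 2 * (z * z') := by
  by_contra h
  push Not at h
  have hu : A * B + 2 * (z * z') ≤ 5 * (κ * ω) := by linarith
  have hv : A + B + 2 * (z * z') ≤ 5 * ((A - κ) * (B - ω)) := by nlinarith
  rcases le_or_gt 0 (z * z') with hzz | hzz
  · have ha : 1/2 ≤ 1 - 2 * z ^ 2 := by nlinarith
    have hb : 1/2 ≤ 1 - 2 * z' ^ 2 := by nlinarith
    have hA0 := lowA hκ ha hCA
    have hB0 := lowA hω hb hCB
    have hAB0 : 87/250 * (87/250) < A * B := mul_lt_mul'' hA0 hB0 (by norm_num) (by norm_num)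
    norm_num at hAB0
    have hκω : 0 < κ * ω := by linarith
    rcases pos_and_pos_or_neg_and_neg_of_mul_pos hκω with ⟨h5, h6⟩ | ⟨h5, h6⟩
    · have hABp : 0 < A * B := by linarith
      have hP := Real.sq_sqrt hABp.le
      have hP0 := Real.sqrt_pos.2 hABp
      have hP1 : Real.sqrt (A * B) ≤ 1 := by
        rw [Real.sqrt_le_one]
        exact mul_le_one₀ hA1 (by linarith) hB1
      have hP2 : 2 * Real.sqrt (A * B) ≤ A + B := by
        have h8 : Real.sqrt (A * B) ≤ (A + B) / 2 := by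
          apply Real.sqrt_le_iff.2
          constructor
          · linarith
          · nlinarith [sq_nonneg (A - B)]
        linarith
      have hP3 : 34/100 < Real.sqrt (A * B) := by
        apply Real.lt_sqrt_of_sq_lt
        norm_num
        linarith
      refine hi5 (c := 0) hP0 hP h5.le h6.le hκA.le hωB.le (by linarith) (by linarith)
        (by positivity) (by linarith) (quad0 hP3 hP1)
    · have h7 := lowN hκ h5 (by linarith) hCA
      have h8 := lowN hω h6 (by linarith) hCB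
      have h9 : 1/2 * (1/2) ≤ A * B := mul_le_mul (by linarith) (by linarith) (by norm_num)
        (by linarith)
      have h10 : -κ * -ω < 1/5 * (1/5) :=
        mul_lt_mul'' (by linarith) (by linarith) (by linarith) (by linarith)
      rw [neg_mul_neg] at h10
      linarith
  · rcases mul_neg_iff.1 hzz with ⟨h5, h6⟩ | ⟨h5, h6⟩
    · exact neg5 (A := B) (B := A) (κ := ω) (ω := κ) (z := z') (z' := z) hB1 hA1 hωB hκA hω hκ
        hz'1 h6.le h5.le hz2 hCB hCA (by linarith [mul_comm A B, mul_comm κ ω, mul_comm z z'])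
        (by linarith [mul_comm (A - κ) (B - ω), mul_comm z z'])
    · exact neg5 hA1 hB1 hκA hωB hκ hω hz1 h5.le h6.le hz'2 hCA hCB hu hv

end Vale.Agent.P052.R3.H86
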